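import Vale.Agent.P309.Linear

/-!
P309: first-order sample dependence on precision is optimal under bounded memory.
-/

open MeasureTheory ProbabilityTheory Vale.Agent.P309
open scoped ENNReal

namespace Vale.Agent.Results.P309.LinearPrecision

/-- Learners with `O(d^2)` bits need `Ω(d log (1/ε))` samples in the noiseless model. -/
theorem result :
    (∃ c C : ℝ, ∃ d₀ : ℕ, 0 < c ∧ 0 < C ∧
      ∀ d M T : ℕ, d₀ ≤ d → ∀ ε : ℝ, 0 < ε →
        C * (1 + (M : ℝ) / (d : ℝ) ^ 2) ≤ Real.log (1 / ε) →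
        (T : ℝ) ≤ c * d * Real.log (1 / ε) / (1 + (M : ℝ) / (d : ℝ) ^ 2) →
        ∀ (σ : Type) [Fintype σ], Fintype.card σ ≤ 2 ^ M →
          ∀ L : Learner d σ, L.success ε T < 2 / 3) ∧
    (∀ A : ℝ, 0 ≤ A → ∃ c ε₀ : ℝ, ∃ d₀ : ℕ, 0 < c ∧ 0 < ε₀ ∧
      ∀ d M T : ℕ, d₀ ≤ d → (M : ℝ) ≤ A * (d : ℝ) ^ 2 →
        ∀ ε : ℝ, 0 < ε → ε < ε₀ →
          ∀ (σ : Type) [Fintype σ], Fintype.card σ ≤ 2 ^ M →
            ∀ L : Learner d σ, 2 / 3 ≤ L.success ε T →
              c * d * Real.log (1 / ε) < (T : ℝ)) := by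
  refine ⟨⟨1 / 16384, 1000, 32, by norm_num, by norm_num,
    fun d M T hd ε hε hL hT σ _ hσ L => success_linear hd hε σ hσ L hL hT⟩, fun A hA => ?_⟩
  refine ⟨1 / (16384 * (1 + A)), Real.exp (-(1000 * (1 + A))), 32, by positivity, Real.exp_pos _,
    fun d M T hd hM ε hε hε0 σ _ hσ L hsucc => ?_⟩
  have hd0 : (0 : ℝ) < d := by exact_mod_cast (by omega : 0 < d)
  set N := 1 + (M : ℝ) / (d : ℝ) ^ 2 with hN
  have hN1 : 1 ≤ N := by rw [hN]; exact le_add_of_nonneg_right (by positivity)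
  have hNA : N ≤ 1 + A := by
    have : (M : ℝ) / (d : ℝ) ^ 2 ≤ A := by rw [div_le_iff₀ (by positivity)]; exact hM
    rw [hN]; linarith
  have hLg : 1000 * (1 + A) ≤ Real.log (1 / ε) := by
    have h := Real.log_lt_log hε hε0
    rw [Real.log_exp] at h
    rw [one_div, Real.log_inv]
    linarith
  have hLg0 : 0 ≤ Real.log (1 / ε) := by linarith
  by_contra hcon
  rw [not_lt] at hcon
  refine absurd hsucc (not_le.2 (success_linear hd hε σ hσ L
    (le_trans (mul_le_mul_of_nonneg_left hNA (by norm_num)) hLg) (hcon.trans ?_)))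
  have h1 : 1 / (16384 * (1 + A)) * (d : ℝ) * Real.log (1 / ε)
      = 1 / 16384 * (d : ℝ) * Real.log (1 / ε) / (1 + A) := by
    field_simp
  rw [h1]
  exact div_le_div_of_nonneg_left (by positivity) (by linarith) hNA

end Vale.Agent.Results.P309.LinearPrecision
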